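import Mathlib

namespace Vale.Agent.Results.P262.SignedSumLowerBound

open scoped BigOperators

variable {E : Type*} [NormedAddCommGroup E] [InnerProductSpace ℝ E]

/-- `Bad T ws s`: starting from the running sum `s`, for every choice of signs for the vectors
of `ws` (taken in order) some running sum (the initial one included) has squared norm at
least `T`. -/
def Bad (T : ℝ) : List E → E → Prop
  | [], s => T ≤ ‖s‖ ^ 2
  | w :: ws, s => T ≤ ‖s‖ ^ 2 ∨ (Bad T ws (s + w) ∧ Bad T ws (s - w))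

omit [InnerProductSpace ℝ E] in
theorem bad_of_le {T : ℝ} (ws : List E) {s : E} (h : T ≤ ‖s‖ ^ 2) : Bad T ws s := by
  cases ws with
  | nil => exact h
  | cons w ws => exact Or.inl h

omit [InnerProductSpace ℝ E] in
theorem bad_neg {T : ℝ} : ∀ (ws : List E) (s : E), Bad T ws s → Bad T ws (-s) := by
  intro ws
  induction ws with
  | nil =>
    intro s h
    show T ≤ ‖-s‖ ^ 2
    rw [norm_neg]; exact h
  | cons w ws ih =>
    intro s h
    rcases h with h | ⟨h1, h2⟩
    · left; rw [norm_neg]; exact h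
    · right
      have e1 : -s + w = -(s - w) := by abel
      have e2 : -s - w = -(s + w) := by abel
      rw [e1, e2]
      exact ⟨ih _ h2, ih _ h1⟩

/-- Meaning of `Bad` in terms of sign sequences. -/
theorem bad_signs {T : ℝ} : ∀ (ws : List E) (s : E), Bad T ws s →
    ∀ ε : ℕ → ℝ, (∀ i, ε i = 1 ∨ ε i = -1) →
      ∃ k, k ≤ ws.length ∧ T ≤ ‖s + ∑ i ∈ Finset.range k, ε i • ws.getD i 0‖ ^ 2 := by
  intro ws
  induction ws with
  | nil =>
    intro s h ε _
    have h' : T ≤ ‖s‖ ^ 2 := h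
    exact ⟨0, le_refl _, by simpa using h'⟩
  | cons w ws ih =>
    intro s h ε hε
    rcases h with h | ⟨h1, h2⟩
    · exact ⟨0, Nat.zero_le _, by simpa using h⟩
    · rcases hε 0 with h0 | h0
      · obtain ⟨k, hk, hT⟩ := ih (s + w) h1 (fun i => ε (i + 1)) (fun i => hε (i + 1))
        refine ⟨k + 1, by simpa using hk, ?_⟩
        rw [Finset.sum_range_succ']
        simp only [List.getD_cons_succ, List.getD_cons_zero, h0, one_smul]
        have e : s + (∑ i ∈ Finset.range k, ε (i + 1) • ws.getD i 0 + w)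
            = s + w + ∑ i ∈ Finset.range k, ε (i + 1) • ws.getD i 0 := by abel
        rw [e]; exact hT
      · obtain ⟨k, hk, hT⟩ := ih (s - w) h2 (fun i => ε (i + 1)) (fun i => hε (i + 1))
        refine ⟨k + 1, by simpa using hk, ?_⟩
        rw [Finset.sum_range_succ']
        simp only [List.getD_cons_succ, List.getD_cons_zero, h0, neg_smul, one_smul]
        have e : s + (∑ i ∈ Finset.range k, ε (i + 1) • ws.getD i 0 + -w)
            = s - w + ∑ i ∈ Finset.range k, ε (i + 1) • ws.getD i 0 := by abel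
        rw [e]; exact hT

/-- From a list to a finite family. -/
theorem fin_form {T : ℝ} (ws : List E) (h : Bad T ws 0) (hball : ∀ w ∈ ws, ‖w‖ = 1) :
    ∃ (N : ℕ) (v : Fin N → E), (∀ i, ‖v i‖ = 1) ∧
      ∀ ε : Fin N → ℝ, (∀ i, ε i = 1 ∨ ε i = -1) →
        ∃ k : ℕ, k ≤ N ∧ T ≤ ‖∑ i ∈ Finset.univ.filter (fun i : Fin N => (i : ℕ) < k), ε i • v i‖ ^ 2 := by
  refine ⟨ws.length, fun i => ws.get i, fun i => hball _ (List.get_mem _ _), ?_⟩
  intro ε hε
  set ε' : ℕ → ℝ := fun i => if h : i < ws.length then ε ⟨i, h⟩ else 1 with hε'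
  have hε'1 : ∀ i, ε' i = 1 ∨ ε' i = -1 := by
    intro i
    simp only [hε']
    split_ifs with hi
    · exact hε _
    · left; rfl
  obtain ⟨k, hk, hT⟩ := bad_signs ws 0 h ε' hε'1
  refine ⟨k, hk, ?_⟩
  have key : ∑ i ∈ Finset.univ.filter (fun i : Fin ws.length => (i : ℕ) < k), ε i • ws.get i
      = ∑ i ∈ Finset.range k, ε' i • ws.getD i 0 := by
    rw [Finset.sum_filter]
    have e1 : ∀ i : Fin ws.length, (if (i : ℕ) < k then ε i • ws.get i else 0)
        = (fun j : ℕ => if j < k then ε' j • ws.getD j 0 else 0) (i : ℕ) := by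
      intro i
      by_cases hik : (i : ℕ) < k
      · simp only [hik, if_true, hε', i.isLt, dif_pos]
        congr 1
        rw [List.getD_eq_getElem _ _ i.isLt]
        rfl
      · simp only [hik, if_false]
    rw [Finset.sum_congr rfl (fun i _ => e1 i),
      Fin.sum_univ_eq_sum_range (fun j : ℕ => if j < k then ε' j • ws.getD j 0 else 0) ws.length,
      ← Finset.sum_filter]
    congr 1
    ext j
    simp only [Finset.mem_filter, Finset.mem_range]
    omega
  rw [key]
  simpa using hT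

/-! ### Vectors orthogonal to everything raise all squared norms -/

theorem bad_add_orth {T : ℝ} (u : E) : ∀ (ws : List E) (s : E), inner ℝ (u) (s) = 0 →
    (∀ w ∈ ws, inner ℝ (u) (w) = 0) → Bad T ws s → Bad (T + ‖u‖ ^ 2) ws (s + u) := by
  intro ws
  induction ws with
  | nil =>
    intro s hus _ h
    show T + ‖u‖ ^ 2 ≤ ‖s + u‖ ^ 2
    have hp : ‖s + u‖ ^ 2 = ‖s‖ ^ 2 + ‖u‖ ^ 2 := by
      rw [norm_add_sq_real, real_inner_comm, hus]; ring
    rw [hp]
    have h' : T ≤ ‖s‖ ^ 2 := h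
    linarith
  | cons w ws ih =>
    intro s hus huw h
    have hp : ‖s + u‖ ^ 2 = ‖s‖ ^ 2 + ‖u‖ ^ 2 := by
      rw [norm_add_sq_real, real_inner_comm, hus]; ring
    have huw0 : inner ℝ (u) (w) = 0 := huw w (List.mem_cons_self)
    have huws : ∀ w' ∈ ws, inner ℝ (u) (w') = 0 := fun w' hw' => huw w' (List.mem_cons_of_mem _ hw')
    rcases h with h | ⟨h1, h2⟩
    · left; rw [hp]; linarith
    · right
      have e1 : s + u + w = s + w + u := by abel
      have e2 : s + u - w = s - w + u := by abel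
      rw [e1, e2]
      refine ⟨ih (s + w) ?_ huws h1, ih (s - w) ?_ huws h2⟩
      · rw [inner_add_right, hus, huw0, add_zero]
      · rw [inner_sub_right, hus, huw0, sub_zero]

theorem bad_junk {T : ℝ} (ws : List E) (h0 : Bad T ws 0) : ∀ (js : List E) (t : E),
    js.Pairwise (fun x y => inner ℝ (x) (y) = 0) → (∀ j ∈ js, ‖j‖ = 1) →
    (∀ j ∈ js, ∀ w ∈ ws, inner ℝ (j) (w) = 0) → (∀ j ∈ js, inner ℝ (j) (t) = 0) →
    (∀ w ∈ ws, inner ℝ (t) (w) = 0) → Bad (T + ‖t‖ ^ 2 + js.length) (js ++ ws) t := by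
  intro js
  induction js with
  | nil =>
    intro t _ _ _ _ htw
    have := bad_add_orth t ws 0 (by simp) htw h0
    simpa using this
  | cons j js ih =>
    intro t hpw hn hjw hjt htw
    rw [List.pairwise_cons] at hpw
    have hj1 : ‖j‖ = 1 := hn j (List.mem_cons_self)
    have hjt0 : inner ℝ (j) (t) = 0 := hjt j (List.mem_cons_self)
    have hn' : ∀ j' ∈ js, ‖j'‖ = 1 := fun j' hj' => hn j' (List.mem_cons_of_mem _ hj')
    have hjw' : ∀ j' ∈ js, ∀ w ∈ ws, inner ℝ (j') (w) = 0 :=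
      fun j' hj' => hjw j' (List.mem_cons_of_mem _ hj')
    have hplus : ‖t + j‖ ^ 2 = ‖t‖ ^ 2 + 1 := by
      rw [norm_add_sq_real, real_inner_comm, hjt0, hj1]; ring
    have hminus : ‖t - j‖ ^ 2 = ‖t‖ ^ 2 + 1 := by
      rw [norm_sub_sq_real, real_inner_comm, hjt0, hj1]; ring
    right
    have c1 := ih (t + j) hpw.2 hn' hjw' (fun j' hj' => by
      rw [inner_add_right, hjt j' (List.mem_cons_of_mem _ hj'), real_inner_comm,
        hpw.1 j' hj', add_zero]) (fun w hw => by
      rw [inner_add_left, htw w hw, hjw j (List.mem_cons_self) w hw, add_zero])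
    have c2 := ih (t - j) hpw.2 hn' hjw' (fun j' hj' => by
      rw [inner_sub_right, hjt j' (List.mem_cons_of_mem _ hj'), real_inner_comm,
        hpw.1 j' hj', sub_zero]) (fun w hw => by
      rw [inner_sub_left, htw w hw, hjw j (List.mem_cons_self) w hw, sub_zero])
    rw [hplus] at c1
    rw [hminus] at c2
    have e : T + ‖t‖ ^ 2 + ((j :: js).length : ℝ) = T + (‖t‖ ^ 2 + 1) + (js.length : ℝ) := by
      simp only [List.length_cons]; push_cast; ring
    show Bad (T + ‖t‖ ^ 2 + ((j :: js).length : ℝ)) (js ++ ws) (t + j) ∧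
      Bad (T + ‖t‖ ^ 2 + ((j :: js).length : ℝ)) (js ++ ws) (t - j)
    rw [e]
    exact ⟨c1, c2⟩

/-! ### The planar game -/

section planar

variable {a b : E}

theorem nsq_pl (ha : ‖a‖ = 1) (hb : ‖b‖ = 1) (hab : inner ℝ (a) (b) = 0) (α β : ℝ) :
    ‖α • a + β • b‖ ^ 2 = α ^ 2 + β ^ 2 := by
  rw [norm_add_sq_real, norm_smul, norm_smul, inner_smul_left, inner_smul_right, hab, ha, hb]
  simp [sq_abs]

theorem nsq_add (ha : ‖a‖ = 1) (hb : ‖b‖ = 1) (hab : inner ℝ (a) (b) = 0) (p q α β : ℝ) :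
    ‖(p • a + q • b) + (α • a + β • b)‖ ^ 2
      = (p ^ 2 + q ^ 2) + (α ^ 2 + β ^ 2) + 2 * (p * α + q * β) := by
  have e : (p • a + q • b) + (α • a + β • b) = (p + α) • a + (q + β) • b := by
    simp only [add_smul]; abel
  rw [e, nsq_pl ha hb hab]; ring

theorem nsq_sub (ha : ‖a‖ = 1) (hb : ‖b‖ = 1) (hab : inner ℝ (a) (b) = 0) (p q α β : ℝ) :
    ‖(p • a + q • b) - (α • a + β • b)‖ ^ 2
      = (p ^ 2 + q ^ 2) + (α ^ 2 + β ^ 2) - 2 * (p * α + q * β) := by
  have e : (p • a + q • b) - (α • a + β • b) = (p - α) • a + (q - β) • b := by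
    simp only [sub_smul]; abel
  rw [e, nsq_pl ha hb hab]; ring

/-- Single-branch forcing in the plane spanned by `a` and `b`. -/
theorem single (ha : ‖a‖ = 1) (hb : ‖b‖ = 1) (hab : inner ℝ (a) (b) = 0) (T : ℝ) :
    ∀ (n : ℕ) (p q : ℝ), 1 ≤ p ^ 2 + q ^ 2 → 1 ≤ 2 ^ n * (p ^ 2 + q ^ 2 - (T - 2)) →
      ∃ ws : List E, (∀ w ∈ ws, ∃ α β : ℝ, w = α • a + β • b ∧ α ^ 2 + β ^ 2 = 1) ∧
        Bad T ws (p • a + q • b) := by
  intro n
  induction n with
  | zero =>
    intro p q hx hex
    -- both signs of a unit vector orthogonal to the running sum work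
    set x := p ^ 2 + q ^ 2 with hxdef
    have hxpos : 0 < x := by linarith
    set r := Real.sqrt x with hr
    have hr2 : r ^ 2 = x := Real.sq_sqrt hxpos.le
    have hrpos : 0 < r := Real.sqrt_pos.mpr hxpos
    have hunit : (-q / r) ^ 2 + (p / r) ^ 2 = 1 := by
      field_simp
      nlinarith
    have hdot : p * (-q / r) + q * (p / r) = 0 := by
      field_simp
      ring
    refine ⟨[(-q / r) • a + (p / r) • b], ?_, ?_⟩
    · intro w hw
      simp only [List.mem_singleton] at hw
      exact ⟨-q / r, p / r, hw, hunit⟩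
    · right
      constructor
      · show T ≤ ‖(p • a + q • b) + ((-q / r) • a + (p / r) • b)‖ ^ 2
        rw [nsq_add ha hb hab, hunit, hdot]
        simp only [pow_zero, one_mul] at hex
        linarith
      · show T ≤ ‖(p • a + q • b) - ((-q / r) • a + (p / r) • b)‖ ^ 2
        rw [nsq_sub ha hb hab, hunit, hdot]
        simp only [pow_zero, one_mul] at hex
        linarith
  | succ n ih =>
    intro p q hx hex
    set x := p ^ 2 + q ^ 2 with hxdef
    have hxpos : 0 < x := by linarith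
    have hexc : 0 < x - (T - 2) := by
      by_contra hneg
      push Not at hneg
      have : (2 : ℝ) ^ (n + 1) * (x - (T - 2)) ≤ 0 :=
        mul_nonpos_of_nonneg_of_nonpos (by positivity) hneg
      linarith
    by_cases hbig : T - 1 ≤ x
    · -- finish at once as in the base case
      exact ih p q hx (by
        have h2 : (1 : ℝ) ≤ 2 ^ n := one_le_pow₀ (by norm_num)
        have : (1 : ℝ) ≤ x - (T - 2) := by linarith
        calc (1 : ℝ) = 1 * 1 := by ring
          _ ≤ 2 ^ n * (x - (T - 2)) := by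
            apply mul_le_mul h2 this (by norm_num) (by positivity))
    · push Not at hbig
      set c := (T - x - 1) / 2 with hc
      have hcpos : 0 < c := by rw [hc]; linarith
      have hchalf : c < 1 / 2 := by rw [hc]; linarith
      have hc2 : c ^ 2 < 1 / 4 := by nlinarith
      have hxc : 0 < x - c ^ 2 := by linarith
      set r := Real.sqrt (x - c ^ 2) with hr
      have hr2 : r ^ 2 = x - c ^ 2 := Real.sq_sqrt hxc.le
      set α := (c * p - r * q) / x with hα
      set β := (c * q + r * p) / x with hβ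
      have hxne : x ≠ 0 := hxpos.ne'
      have hunit : α ^ 2 + β ^ 2 = 1 := by
        rw [hα, hβ]
        field_simp
        linear_combination (-(c ^ 2 + r ^ 2)) * hxdef + x * hr2
      have hdot : p * α + q * β = c := by
        rw [hα, hβ]
        field_simp
        rw [hxdef]; ring
      have hplus : ‖(p • a + q • b) + (α • a + β • b)‖ ^ 2 = T := by
        rw [nsq_add ha hb hab, hunit, hdot, ← hxdef, hc]; ring
      have hminus : ‖(p • a + q • b) - (α • a + β • b)‖ ^ 2 = 2 * x + 2 - T := by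
        rw [nsq_sub ha hb hab, hunit, hdot, ← hxdef, hc]; ring
      have e : (p • a + q • b) - (α • a + β • b) = (p - α) • a + (q - β) • b := by
        simp only [sub_smul]; abel
      have hx' : (p - α) ^ 2 + (q - β) ^ 2 = 2 * x + 2 - T := by
        rw [← nsq_pl ha hb hab, ← e, hminus]
      obtain ⟨ws, hws, hbad⟩ := ih (p - α) (q - β) (by rw [hx']; linarith) (by
        rw [hx']
        have : (2 : ℝ) ^ n * (2 * x + 2 - T - (T - 2)) = 2 ^ (n + 1) * (x - (T - 2)) := by
          rw [pow_succ]; ring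
        rw [this]; exact hex)
      refine ⟨(α • a + β • b) :: ws, ?_, ?_⟩
      · intro w hw
        rcases List.mem_cons.mp hw with hw | hw
        · exact ⟨α, β, hw, hunit⟩
        · exact hws w hw
      · right
        refine ⟨bad_of_le ws (by rw [hplus]), ?_⟩
        rw [e]; exact hbad

/-- In the plane every target below `3` can be forced. -/
theorem planar_game (ha : ‖a‖ = 1) (hb : ‖b‖ = 1) (hab : inner ℝ (a) (b) = 0) (T : ℝ) (hT : T < 3) :
    ∃ ws : List E, (∀ w ∈ ws, ∃ α β : ℝ, w = α • a + β • b ∧ α ^ 2 + β ^ 2 = 1) ∧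
      Bad T ws 0 := by
  obtain ⟨n, hn⟩ := pow_unbounded_of_one_lt (1 / (3 - T)) (one_lt_two : (1 : ℝ) < 2)
  have h3 : 0 < 3 - T := by linarith
  have hn' : 1 ≤ (2 : ℝ) ^ n * ((1 : ℝ) ^ 2 + (0 : ℝ) ^ 2 - (T - 2)) := by
    have : 1 < (2 : ℝ) ^ n * (3 - T) := by
      rwa [div_lt_iff₀ h3] at hn
    have e : (1 : ℝ) ^ 2 + (0 : ℝ) ^ 2 - (T - 2) = 3 - T := by ring
    rw [e]; exact this.le
  obtain ⟨ws, hws, hbad⟩ := single ha hb hab T n 1 0 (by norm_num) hn'
  have e1 : (1 : ℝ) • a + (0 : ℝ) • b = a := by simp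
  rw [e1] at hbad
  refine ⟨a :: ws, ?_, ?_⟩
  · intro w hw
    rcases List.mem_cons.mp hw with hw | hw
    · exact ⟨1, 0, by rw [hw, e1], by norm_num⟩
    · exact hws w hw
  · right
    constructor
    · rw [zero_add]; exact hbad
    · rw [zero_sub]; exact bad_neg ws a hbad

end planar

/-- **Lower bound for signed running sums in Euclidean space.**
For every dimension `d ≥ 2` and every real `T < d + 1` there are finitely many vectors
`v 0, ..., v (N-1)` of Euclidean norm one in `ℝ^d` such that for every choice of signs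
`ε i = ± 1` some initial sum `∑_{i < k} ε i • v i` (with `k ≤ N`) has squared Euclidean norm at
least `T`. -/
theorem result (d : ℕ) (hd : 2 ≤ d) (T : ℝ) (hT : T < (d : ℝ) + 1) :
    ∃ (N : ℕ) (v : Fin N → EuclideanSpace ℝ (Fin d)), (∀ i, ‖v i‖ = 1) ∧
      ∀ ε : Fin N → ℝ, (∀ i, ε i = 1 ∨ ε i = -1) →
        ∃ k : ℕ, k ≤ N ∧ T ≤ ‖∑ i ∈ Finset.univ.filter (fun i : Fin N => (i : ℕ) < k), ε i • v i‖ ^ 2 := by
  obtain ⟨m, rfl⟩ : ∃ m, d = m + 2 := ⟨d - 2, by omega⟩
  set e := EuclideanSpace.basisFun (Fin (m + 2)) ℝ with he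
  have hon : Orthonormal ℝ e := e.orthonormal
  have hnorm : ∀ i, ‖e i‖ = 1 := hon.1
  have horth : ∀ i j, i ≠ j → inner ℝ (e i) (e j) = 0 := fun i j hij => hon.2 hij
  set a := e ⟨0, by omega⟩ with hadef
  set b := e ⟨1, by omega⟩ with hbdef
  have hab : inner ℝ (a) (b) = 0 := horth _ _ (by simp)
  have hT' : T - m < 3 := by push_cast at hT; linarith
  obtain ⟨ws, hws, hbad⟩ := planar_game (hnorm _) (hnorm _) hab (T - m) hT'
  set js : List (EuclideanSpace ℝ (Fin (m + 2))) :=
    List.ofFn (fun i : Fin m => e ⟨(i : ℕ) + 2, by omega⟩) with hjs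
  have hjmem : ∀ j ∈ js, ∃ i : Fin m, j = e ⟨(i : ℕ) + 2, by omega⟩ := by
    intro j hj
    rw [hjs, List.mem_ofFn] at hj
    obtain ⟨i, hi⟩ := hj
    exact ⟨i, hi.symm⟩
  have hjw : ∀ j ∈ js, ∀ w ∈ ws, inner ℝ (j) (w) = 0 := by
    intro j hj w hw
    obtain ⟨i, rfl⟩ := hjmem j hj
    obtain ⟨α, β, rfl, _⟩ := hws w hw
    rw [inner_add_right, inner_smul_right, inner_smul_right,
      horth _ _ (by simp [Fin.ext_iff]), horth _ _ (by simp [Fin.ext_iff])]
    simp
  have hpw : js.Pairwise (fun x y => inner ℝ (x) (y) = 0) := by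
    rw [hjs, List.pairwise_ofFn]
    intro i j hij
    exact horth _ _ (by
      simp only [ne_eq, Fin.mk.injEq, Nat.add_right_cancel_iff]
      exact fun h => (ne_of_lt hij) (Fin.ext h))
  have hjn : ∀ j ∈ js, ‖j‖ = 1 := by
    intro j hj
    obtain ⟨i, rfl⟩ := hjmem j hj
    exact hnorm _
  have hfull := bad_junk ws hbad js 0 hpw hjn hjw (fun j _ => by simp) (fun w _ => by simp)
  have hlen : js.length = m := by rw [hjs, List.length_ofFn]
  have hTeq : T - (m : ℝ) + ‖(0 : EuclideanSpace ℝ (Fin (m + 2)))‖ ^ 2 + (js.length : ℝ) = T := by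
    rw [hlen]; simp
  rw [hTeq] at hfull
  refine fin_form (js ++ ws) hfull ?_
  intro w hw
  rcases List.mem_append.mp hw with hw | hw
  · exact hjn w hw
  · obtain ⟨α, β, rfl, hαβ⟩ := hws w hw
    have h2 : ‖α • a + β • b‖ ^ 2 = 1 := by
      rw [nsq_pl (hnorm _) (hnorm _) hab]; exact hαβ
    exact (pow_eq_one_iff_of_nonneg (norm_nonneg _) two_ne_zero).mp h2

end Vale.Agent.Results.P262.SignedSumLowerBound
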