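import Mathlib
import Vale.Agent.Results.P262.SignedSumLowerBound

namespace Vale.Agent.Results.P262.ThreeDimLowerBound

open Vale.Agent.Results.P262.SignedSumLowerBound
open scoped BigOperators

variable {E : Type*} [NormedAddCommGroup E] [InnerProductSpace ℝ E]

/-- From a list to a finite family, for vectors in the unit ball. -/
theorem fin_form_le {T : ℝ} (ws : List E) (h : Bad T ws 0) (hball : ∀ w ∈ ws, ‖w‖ ≤ 1) :
    ∃ (N : ℕ) (v : Fin N → E), N = ws.length ∧ (∀ i, ‖v i‖ ≤ 1) ∧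
      ∀ ε : Fin N → ℝ, (∀ i, ε i = 1 ∨ ε i = -1) →
        ∃ k : ℕ, k ≤ N ∧
          T ≤ ‖∑ i ∈ Finset.univ.filter (fun i : Fin N => (i : ℕ) < k), ε i • v i‖ ^ 2 := by
  refine ⟨ws.length, fun i => ws.get i, rfl, fun i => hball _ (List.get_mem _ _), ?_⟩
  intro ε hε
  set ε' : ℕ → ℝ := fun i => if h : i < ws.length then ε ⟨i, h⟩ else 1 with hε'
  have hε'1 : ∀ i, ε' i = 1 ∨ ε' i = -1 := by
    intro i
    simp only [hε']
    split_ifs with hi
    · exact hε _
    · left; rfl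
  obtain ⟨k, hk, hT⟩ := bad_signs ws 0 h ε' hε'1
  refine ⟨k, hk, ?_⟩
  have key : ∑ i ∈ Finset.univ.filter (fun i : Fin ws.length => (i : ℕ) < k), ε i • ws.get i
      = ∑ i ∈ Finset.range k, ε' i • ws.getD i 0 := by
    rw [Finset.sum_filter]
    have e1 : ∀ i : Fin ws.length, (if (i : ℕ) < k then ε i • ws.get i else 0)
        = (fun j : ℕ => if j < k then ε' j • ws.getD j 0 else 0) (i : ℕ) := by
      intro i
      by_cases hik : (i : ℕ) < k
      · simp only [hik, if_true, hε', i.isLt, dif_pos]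
        congr 1
        rw [List.getD_eq_getElem _ _ i.isLt]
        rfl
      · simp only [hik, if_false]
    rw [Finset.sum_congr rfl (fun i _ => e1 i),
      Fin.sum_univ_eq_sum_range (fun j : ℕ => if j < k then ε' j • ws.getD j 0 else 0) ws.length,
      ← Finset.sum_filter]
    congr 1
    ext j
    simp only [Finset.mem_filter, Finset.mem_range]
    omega
  rw [key]
  simpa using hT

/-! ### An exact integer certificate in three dimensions -/

/-- Squared length of an integer vector. -/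
def nsq (s : ℤ × ℤ × ℤ) : ℤ := s.1 ^ 2 + s.2.1 ^ 2 + s.2.2 ^ 2

/-- `chk T ws s`: for every choice of signs for the integer vectors of `ws` (taken in order),
starting from the running sum `s`, some running sum has squared length at least `T`. -/
def chk (T : ℤ) : List (ℤ × ℤ × ℤ) → ℤ × ℤ × ℤ → Bool
  | [], s => decide (T ≤ nsq s)
  | w :: ws, s => decide (T ≤ nsq s) || (chk T ws (s + w) && chk T ws (s - w))

/-- The fourteen vectors of the certificate, in units of `1/1000`. -/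
def cfg : List (ℤ × ℤ × ℤ) :=
  [(-248, -952, 179), (727, 56, 684), (786, 50, -616), (776, 601, -188), (858, 491, -148),
   (449, 855, -258), (-44, -902, -429), (921, -349, 171), (386, 725, 570), (624, -639, 449),
   (463, 806, 367), (-2, 616, 787), (322, -305, -896), (16, -999, 8)]

theorem cfg_chk : chk 4200000 cfg (0, 0, 0) = true := by decide +kernel

theorem cfg_ball : ∀ p ∈ cfg, nsq p ≤ 1000000 := by decide +kernel

section embed

variable {a b c : E}

/-- The vector `(p.1 a + p.2.1 b + p.2.2 c) / 1000`. -/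
noncomputable def emb (a b c : E) (p : ℤ × ℤ × ℤ) : E :=
  ((p.1 : ℝ) / 1000) • a + ((p.2.1 : ℝ) / 1000) • b + ((p.2.2 : ℝ) / 1000) • c

theorem nsq3 (ha : ‖a‖ = 1) (hb : ‖b‖ = 1) (hc : ‖c‖ = 1) (hab : inner ℝ a b = 0)
    (hac : inner ℝ a c = 0) (hbc : inner ℝ b c = 0) (x y z : ℝ) :
    ‖x • a + y • b + z • c‖ ^ 2 = x ^ 2 + y ^ 2 + z ^ 2 := by
  rw [norm_add_sq_real, norm_add_sq_real]
  simp only [inner_add_left, inner_smul_left, inner_smul_right, norm_smul, hab, hac, hbc, ha, hb,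
    hc, mul_zero, add_zero, mul_one, Real.norm_eq_abs, sq_abs, conj_trivial]

theorem nsq_emb (ha : ‖a‖ = 1) (hb : ‖b‖ = 1) (hc : ‖c‖ = 1) (hab : inner ℝ a b = 0)
    (hac : inner ℝ a c = 0) (hbc : inner ℝ b c = 0) (p : ℤ × ℤ × ℤ) :
    ‖emb a b c p‖ ^ 2 = (nsq p : ℝ) / 1000000 := by
  unfold emb
  rw [nsq3 ha hb hc hab hac hbc]
  unfold nsq
  push_cast
  ring

theorem emb_add (p q : ℤ × ℤ × ℤ) : emb a b c (p + q) = emb a b c p + emb a b c q := by
  unfold emb
  simp only [Prod.fst_add, Prod.snd_add, Int.cast_add, add_div, add_smul]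
  abel

theorem emb_sub (p q : ℤ × ℤ × ℤ) : emb a b c (p - q) = emb a b c p - emb a b c q := by
  unfold emb
  simp only [Prod.fst_sub, Prod.snd_sub, Int.cast_sub, sub_div, sub_smul]
  abel

theorem chk_sound (ha : ‖a‖ = 1) (hb : ‖b‖ = 1) (hc : ‖c‖ = 1) (hab : inner ℝ a b = 0)
    (hac : inner ℝ a c = 0) (hbc : inner ℝ b c = 0) (T : ℤ) :
    ∀ (ws : List (ℤ × ℤ × ℤ)) (s : ℤ × ℤ × ℤ), chk T ws s = true →
      Bad ((T : ℝ) / 1000000) (ws.map (emb a b c)) (emb a b c s) := by
  have hle : ∀ s : ℤ × ℤ × ℤ, T ≤ nsq s → (T : ℝ) / 1000000 ≤ ‖emb a b c s‖ ^ 2 := by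
    intro s hs
    rw [nsq_emb ha hb hc hab hac hbc]
    have : (T : ℝ) ≤ (nsq s : ℝ) := by exact_mod_cast hs
    exact div_le_div_of_nonneg_right this (by norm_num)
  intro ws
  induction ws with
  | nil =>
    intro s h
    simp only [chk, decide_eq_true_eq] at h
    exact hle s h
  | cons w ws ih =>
    intro s h
    simp only [chk, Bool.or_eq_true, Bool.and_eq_true, decide_eq_true_eq] at h
    rcases h with h | ⟨h1, h2⟩
    · exact Or.inl (hle s h)
    · refine Or.inr ⟨?_, ?_⟩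
      · rw [← emb_add]; exact ih _ h1
      · rw [← emb_sub]; exact ih _ h2

end embed

/-- **Lower bound for signed running sums in dimension at least three.**
For every `d ≥ 3` there are `d + 11` vectors of Euclidean norm at most one in `ℝ^d` such that
for every choice of signs `ε i = ± 1` some initial sum `∑_{i < k} ε i • v i` has squared
Euclidean norm at least `d + 6/5`. -/
theorem result (d : ℕ) (hd : 3 ≤ d) :
    ∃ (N : ℕ) (v : Fin N → EuclideanSpace ℝ (Fin d)), N = d + 11 ∧ (∀ i, ‖v i‖ ≤ 1) ∧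
      ∀ ε : Fin N → ℝ, (∀ i, ε i = 1 ∨ ε i = -1) →
        ∃ k : ℕ, k ≤ N ∧ (d : ℝ) + 6 / 5
          ≤ ‖∑ i ∈ Finset.univ.filter (fun i : Fin N => (i : ℕ) < k), ε i • v i‖ ^ 2 := by
  obtain ⟨m, rfl⟩ : ∃ m, d = m + 3 := ⟨d - 3, by omega⟩
  set e := EuclideanSpace.basisFun (Fin (m + 3)) ℝ with he
  have hon : Orthonormal ℝ e := e.orthonormal
  have hnorm : ∀ i, ‖e i‖ = 1 := hon.1
  have horth : ∀ i j, i ≠ j → inner ℝ (e i) (e j) = 0 := fun i j hij => hon.2 hij
  set a := e ⟨0, by omega⟩ with hadef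
  set b := e ⟨1, by omega⟩ with hbdef
  set c := e ⟨2, by omega⟩ with hcdef
  have hab : inner ℝ (a) (b) = 0 := horth _ _ (by simp)
  have hac : inner ℝ (a) (c) = 0 := horth _ _ (by simp)
  have hbc : inner ℝ (b) (c) = 0 := horth _ _ (by simp)
  set ws : List (EuclideanSpace ℝ (Fin (m + 3))) := cfg.map (emb a b c) with hws
  have hbad0 := chk_sound (hnorm _) (hnorm _) (hnorm _) hab hac hbc 4200000 cfg (0, 0, 0) cfg_chk
  have hz : emb a b c (0, 0, 0) = 0 := by simp [emb]
  rw [hz] at hbad0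
  have hwsmem : ∀ w ∈ ws, ∃ p ∈ cfg, w = emb a b c p := by
    intro w hw
    rw [hws, List.mem_map] at hw
    obtain ⟨p, hp, rfl⟩ := hw
    exact ⟨p, hp, rfl⟩
  set js : List (EuclideanSpace ℝ (Fin (m + 3))) :=
    List.ofFn (fun i : Fin m => e ⟨(i : ℕ) + 3, by omega⟩) with hjs
  have hjmem : ∀ j ∈ js, ∃ i : Fin m, j = e ⟨(i : ℕ) + 3, by omega⟩ := by
    intro j hj
    rw [hjs, List.mem_ofFn] at hj
    obtain ⟨i, hi⟩ := hj
    exact ⟨i, hi.symm⟩
  have hjw : ∀ j ∈ js, ∀ w ∈ ws, inner ℝ (j) (w) = 0 := by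
    intro j hj w hw
    obtain ⟨i, hi⟩ := hjmem j hj
    obtain ⟨p, _, hp⟩ := hwsmem w hw
    rw [hi, hp]
    unfold emb
    rw [inner_add_right, inner_add_right, inner_smul_right, inner_smul_right, inner_smul_right,
      horth _ _ (by simp [Fin.ext_iff]), horth _ _ (by simp [Fin.ext_iff]),
      horth _ _ (by simp [Fin.ext_iff])]
    simp
  have hpw : js.Pairwise (fun x y => inner ℝ (x) (y) = 0) := by
    rw [hjs, List.pairwise_ofFn]
    intro i j hij
    exact horth _ _ (by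
      simp only [ne_eq, Fin.mk.injEq, Nat.add_right_cancel_iff]
      exact fun h => (ne_of_lt hij) (Fin.ext h))
  have hjn : ∀ j ∈ js, ‖j‖ = 1 := by
    intro j hj
    obtain ⟨i, rfl⟩ := hjmem j hj
    exact hnorm _
  have hfull := bad_junk ws hbad0 js 0 hpw hjn hjw (fun j _ => by simp) (fun w _ => by simp)
  have hlen : js.length = m := by rw [hjs, List.length_ofFn]
  have hTeq : ((4200000 : ℤ) : ℝ) / 1000000 + ‖(0 : EuclideanSpace ℝ (Fin (m + 3)))‖ ^ 2
      + (js.length : ℝ) = ((m + 3 : ℕ) : ℝ) + 6 / 5 := by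
    rw [hlen]; push_cast; norm_num; ring
  rw [hTeq] at hfull
  obtain ⟨N, v, hN, hv, hsig⟩ := fin_form_le (js ++ ws) hfull (by
    intro w hw
    rcases List.mem_append.mp hw with hw | hw
    · exact (hjn w hw).le
    · obtain ⟨p, hp, hpw'⟩ := hwsmem w hw
      rw [hpw']
      have h2 : ‖emb a b c p‖ ^ 2 ≤ 1 := by
        rw [nsq_emb (hnorm _) (hnorm _) (hnorm _) hab hac hbc]
        have : (nsq p : ℝ) ≤ 1000000 := by exact_mod_cast cfg_ball p hp
        linarith
      have h0 : 0 ≤ ‖emb a b c p‖ := norm_nonneg _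
      nlinarith)
  refine ⟨N, v, ?_, hv, hsig⟩
  rw [hN, List.length_append, hlen, hws, List.length_map]
  simp [cfg]

end Vale.Agent.Results.P262.ThreeDimLowerBound
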